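import Crest.Agent.N337.C9.Geo
import Crest.Agent.N337.Ld.Jnk
import Crest.Agent.N337.E.Loop
import Crest.Agent.N337.M.Ret

/-!
# Row 337, C9 (helper96): `Gram`, `HitC`, `SlwC`, `F4`, `GrnC` from two claims on point parties

`GrC` = Green bound on good point sets, `F2A` = failing trees of the purple loops given an arc.
-/

set_option autoImplicit false
set_option linter.unusedSectionVars false

namespace Crest.Agent.N337.C9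

open Finset Crest.Agent.N337.Rep Crest.Agent.N337.Arc Crest.Agent.N337.Cr Crest.Agent.N337.M
open Crest.Agent.N337.Gas (Lp lp L pts ub qq cn)
open Crest.Agent.N337.Ld (Kl Ad Cd Alv AlvH Fl PL)

variable {Λ : Type} [Fintype Λ] [DecidableEq Λ] {T : ℕ} [NeZero T] {X α κ : Type} [Fintype X]
  [DecidableEq X] [SemilatticeSup α] [Preorder κ]

/-- parties of point sets. -/
structure Pp (I : Ins T Λ X α κ) (G : Bs T Λ) where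
  pp : (Fin T → Bool) → Finset (Fin T × Λ) → α
  un : ∀ ξ O O', pp ξ (O ∪ O') = pp ξ O ⊔ pp ξ O'
  loc : ∀ ξ ξ' O, (∀ v ∈ O, Sg G.ex G.ey ξ' v = Sg G.ex G.ey ξ v) → pp ξ' O = pp ξ O
  pa : ∀ ξ A, A ⊆ L G.ex G.ey ξ → I.pa A = pp ξ (pts A)
  pt : ∀ ξ w E Z x, ¬ I.S.W0 (pp ξ {w}) E Z x

/-- side condition with bounded support. -/
def SdN (N : ℕ) (Sd : Finset (Fin T × Λ) → Prop) (Z : Finset (Fin T × Λ)) : Prop :=
  Sd Z ∧ ∃ S : Finset Λ, S.card ≤ N ∧ ∀ v, v ∉ Z → v.2 ∈ S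

/-- purple loops of the model `(p, b)`. -/
noncomputable def PM (G : Bs T Λ) (p : Fin T → ℝ) (b : Fin T × Λ → ℝ) (f : Finset (Lp T Λ) → ℝ) :
    ℝ := ∑ ξ, Pw p ξ * Pe.av (ub b) (L G.ex G.ey ξ) f

variable {I : Ins T Λ X α κ} {G : Bs T Λ}

section defs
variable (Q : Pp I G) (Sd : Finset (Fin T × Λ) → Prop)

/-- the configuration `s` together with the point set `O` lies in the class. -/
def Gd (d m t : ℕ) (F : Finset X) (R : ℕ) (s : Cfg T Λ) (O : Finset (Fin T × Λ))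
    (ξ : Fin T → Bool) : Prop := Ld.Cls I.S d (I.pa s.e ⊔ Q.pp ξ O) (I.kz s.Z) m t F R

/-- **Green claim.** -/
def GrC (Y : ℝ) (d m nc R : ℕ) (Pr : Fin T × Λ → Fin T × Λ → Prop) (γ : ℝ) : Prop :=
  ∀ (s : Cfg T Λ) F, G.Val s → Sd s.Z → F.card ≤ nc →
    HG G.ex G.ey (G.pn s) (G.mdl Y s).b (Gd Q d m (I.S.tm + 1) F R s) Pr γ

/-- **F2 given an arc.** -/
def F2A (Y : ℝ) (d m nc R0 R1 : ℕ) (ε : ℝ) : Prop :=
  ∀ (s : Cfg T Λ) F E ξ0 x, G.Val s → Sd s.Z → F.card ≤ nc → Gd Q d m I.S.tm F R0 s E ξ0 →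
    ends G.ex G.ey ξ0 E ≤ 1 → I.S.Off F R1 x →
    Ld.pb (PM G (pin (G.pn s) (tch G.ex G.ey E) ξ0) (kill (G.mdl Y s).b E))
      (fun C => Fl I.S d (I.pa s.e ⊔ Q.pp ξ0 E) (I.kz s.Z) (I.pa C) m x) ≤ ε

/-- the common inputs for the class `Cw`. -/
structure Pk (Cw : Cfg T Λ → Prop) (Y L0 ε : ℝ) (N nc d m t : ℕ) (Fc : Finset Λ → Finset X)
    (R R1 nD Km : ℕ) (ws : Fin T → Fin T) (near : Λ → Λ → Prop) : Prop where
  ok : G.Ok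
  Y0 : 0 ≤ Y
  Y1 : Y < 1
  L1 : 1 ≤ L0 * Y ^ Km
  e0 : 0 ≤ ε
  kl : ∀ s, Cw s → Kl I Sd N nc d m t Fc R s
  alv : AlvH I N m nD
  hd : I.S.k0 + I.S.oc + d + 1 ≤ I.S.tm
  ht : t + 1 ≤ I.S.tm
  hR : R ≤ R1
  f2 : F2A Q Sd Y (d + 1) m nc R R1 ε
  slow : G.SlwC Cw ws near

end defs

variable {Q : Pp I G} {Sd : Finset (Fin T × Λ) → Prop} {Y ε γ γ2 L0 δ π : ℝ}
  {d m t nc R R0 R1 N nD Km k0 K0 : ℕ} {F Dm : Finset X} {s : Cfg T Λ} {g : Lp T Λ}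
  {Pr Pr2 : Fin T × Λ → Fin T × Λ → Prop} {Cw : Cfg T Λ → Prop} {Fc : Finset Λ → Finset X}
  {ws : Fin T → Fin T} {near : Λ → Λ → Prop} {ξ : Fin T → Bool}

lemma Pp.mono (Q : Pp I G) (ξ : Fin T → Bool) {O O' : Finset (Fin T × Λ)} (h : O ⊆ O') :
    Q.pp ξ O ≤ Q.pp ξ O' := by rw [← union_eq_right.2 h, Q.un]; exact le_sup_left

lemma Pp.empty (Q : Pp I G) (ξ : Fin T → Bool) (A : Finset (Lp T Λ)) :
    I.pa A ⊔ Q.pp ξ ∅ = I.pa A := by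
  rw [show Q.pp ξ ∅ = I.pa ∅ from (Q.pa ξ ∅ (empty_subset _)).symm, ← I.pa_union, union_empty]

lemma gd_mono : Mono G.ex G.ey (Gd Q d m t F R s) :=
  ⟨fun O ξ ξ' h k => by unfold Gd; rwa [Q.loc ξ ξ' O h], fun _ _ ξ h k =>
    k.mono le_rfl (sup_le_sup_left (Q.mono ξ h) _) le_rfl le_rfl Subset.rfl le_rfl⟩

lemma gd_empty : Gd Q d m t F R s ∅ ξ ↔ Cd I d m t F R s := by rw [Gd, Q.empty]; rfl

theorem F2A.f2 (f : F2A Q Sd Y d m nc R0 R1 ε) : Ld.F2 I G Sd Y d m nc R0 R1 ε := fun s F x a hx => by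
  have := f s F ∅ (fun _ => false) x a.val a.sd a.card (gd_empty.2 a.cl)
    (by rw [ends_empty]; omega) hx
  rwa [pin_empty, kill_empty, Q.empty] at this

lemma fld (h0 : 0 ≤ Y) (h1 : Y < 1) (s : Cfg T Λ) : Fld (G.mdl Y s).b :=
  ⟨Ld.bt_mem h0 h1.le s, fun x => by
    simp only [Bs.mdl, Gas.kill, Top.bt]; split_ifs <;> simp_all⟩

lemma aliv_av (p : Fin T → ℝ) (b : Fin T × Λ → ℝ) (φ : (Fin T → Bool) → Finset (Fin T × Λ) → ℝ) :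
    ∑ ξ, Pw p ξ * ∑ D, aliv G.ex G.ey b ξ D * φ ξ (on D) =
      ∑ ξ, Pw p ξ * Pe.av (ub b) (L G.ex G.ey ξ) fun C => φ ξ (pts C) := by
  have e : Bi.bs b 1 = b := funext fun v => by simp [Bi.bs]
  have := (Bi.BM_aliv (ex := G.ex) (ey := G.ey) p b 1 φ).symm.trans
    (Bi.BM_set p b 1 fun ξ C => φ ξ (pts C))
  simpa only [e, Ld.sum_bw] using this

lemma pl_PM {p : Fin T → ℝ} {b : Fin T × Λ → ℝ} (hp : ∀ s, 0 ≤ p s ∧ p s ≤ 1)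
    (hb : ∀ v, 0 ≤ b v ∧ b v ≤ 1) : PL (PM G p b) fun _ => True := by
  have := (((Ld.pl_J (ex := G.ex) (ey := G.ey) (μ := fun _ => 0) hp hb (by simp)).map
    fun ω => ω.2.1).weaken (Sp' := fun _ => True) fun _ _ => trivial)
  convert this using 2 with f
  exact (Ld.J_purple fun _ => f).symm

/-- **HE.** -/
theorem he (hG : G.Ok) (Y0 : 0 ≤ Y) (Y1 : Y < 1) (h0 : 0 ≤ ε) (f : F2A Q Sd Y d m nc R0 R1 ε)
    (hd : I.S.k0 + I.S.oc + d ≤ I.S.tm) (ht : t ≤ I.S.tm) (hR : R0 ≤ R1) (hs : G.Val s)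
    (hS : Sd s.Z) (hF : F.card ≤ nc) (hA : Alv I.S (I.kz s.Z) m Dm) (hD : Dm.card ≤ nD) :
    HE G.ex G.ey (G.pn s) (G.mdl Y s).b (Gd Q d m t F R0 s) (Gd Q (d + 1) m (I.S.tm + 1) F R1 s)
      (nD * ε) := by
  classical
  intro E ξ0 hg hE
  have hp := pin_mem (hG.pn s) (tch G.ex G.ey E) ξ0
  have hb := ((fld (G := G) Y0 Y1 s).kill E).mem
  have hP := pl_PM (G := G) hp hb
  have hg' : Gd Q d m I.S.tm F R0 s E ξ0 := hg.mono le_rfl le_rfl le_rfl ht Subset.rfl le_rfl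
  refine le_trans ?_ ((Ld.den (E := fun _ => I.pa s.e ⊔ Q.pp ξ0 E) (w := I.pa) hP.sub h0 hd le_rfl hR
    hA fun x hx => (hP.pb_imp fun _ _ h => h.2).trans (f s F E ξ0 x hs hS hF hg' hE hx)).trans
    (by gcongr))
  rw [Ld.pb_eq, bm]
  simp only [bad]
  rw [aliv_av _ _ fun ξ O => if Gd Q (d + 1) m (I.S.tm + 1) F R1 s (E ∪ O) ξ then 0 else 1]
  refine sum_le_sum fun ξ _ => ?_
  by_cases k : Pw (pin (G.pn s) (tch G.ex G.ey E) ξ0) ξ = 0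
  · simp [k]
  refine mul_le_mul_of_nonneg_left (Pe.av_mono (fun g _ => ⟨Gas.ub_nn (fun v => (hb v).1) g,
    Gas.ub_le_one hb g⟩) fun C hC => ?_) (Pw_nonneg hp ξ)
  split_ifs with h
  · exact Op.ind_nn _ _
  · refine (Ld.ind_pos ⟨hg', fun c => h ?_⟩).ge
    rwa [Gd, Q.un, ← Q.pa ξ C hC, ← sup_assoc,
      Q.loc ξ0 ξ E fun v hv => Sg_congr G.ex G.ey (Pw_pin_supp k) hv]

theorem inp (hG : G.Ok) (Y0 : 0 ≤ Y) (Y1 : Y < 1) (h0 : 0 ≤ ε) (f : F2A Q Sd Y d m nc R0 R1 ε)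
    (g : GrC Q Sd Y (d + 1) m nc R1 Pr γ) (γ0 : 0 < γ) (L1 : 1 ≤ L0)
    (hd : I.S.k0 + I.S.oc + d ≤ I.S.tm) (ht : t ≤ I.S.tm) (hR : R0 ≤ R1) (hs : G.Val s)
    (hS : Sd s.Z) (hF : F.card ≤ nc) (hA : Alv I.S (I.kz s.Z) m Dm) (hD : Dm.card ≤ nD)
    (hc : Cd I d m t F R0 s) : Inp G.ex G.ey (G.pn s) (G.mdl Y s).b (Gd Q d m t F R0 s)
      (Gd Q (d + 1) m (I.S.tm + 1) F R1 s) Pr γ (nD * ε) L0 :=
  ⟨hG.pn s, fld Y0 Y1 s, gd_mono, g s F hs hS hF, he hG Y0 Y1 h0 f hd ht hR hs hS hF hA hD, γ0, L1,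
    fun _ => gd_empty.2 hc⟩

lemma fl_leaf {S : Rg.Sys X α κ} {U : ℕ → X → Prop} {P : X → Prop} {x : X} (h : S.Fl U P m x) :
    ∃ y, P y := by
  induction m generalizing x with
  | zero => exact ⟨x, h⟩
  | succ m ih =>
    obtain ⟨A, h1, h2, -⟩ := h
    obtain ⟨y, hy⟩ := card_pos.1 (by omega : 0 < A.card)
    exact ih (h2 y hy).2.2

lemma Pk.one (h : Pk Q Sd Cw Y L0 ε N nc d m t Fc R R1 nD Km ws near) : 1 ≤ L0 := by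
  have a := h.L1
  have b : Y ^ Km ≤ 1 := pow_le_one₀ h.Y0 h.Y1.le
  have c := pow_nonneg h.Y0 Km
  exact a.trans (mul_le_of_le_one_right (pos_of_mul_pos_left (zero_lt_one.trans_le a) c).le b)

/-- test loops lie in the class of `Cr`. -/
theorem Pk.cl (h : Pk Q Sd Cw Y L0 ε N nc d m t Fc R R1 nD Km ws near) (hs : G.Val s)
    (hg : s.Cg Cw Km g) (hq : qq G.ex G.ey (G.pn s) {g} ≠ 0) :
    CL G.ex G.ey (G.mdl Y s).b (Gd Q (d + 1) m (t + 1) (Fc s.cv) R s) ws near L0 Km g where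
  slow := h.slow s g (hs.add hq) hg.1 hg.2.2
  wind := hg.2.1
  wt := by
    rw [← Bs.u_yw, Cfg.u, Gas.off, if_neg hg.2.2, yw_eq]
    exact h.L1.trans (mul_le_mul_of_nonneg_left (pow_le_pow_of_le_one h.Y0 h.Y1.le hg.2.1)
      (zero_le_one.trans h.one))
  gd ξ v e O hO ξ' w hw x hx := by
    have k := Ld.cd_add.1 (h.kl _ hg.1).cl x hx
    refine (Rg.Sys.step_d (C := Q.pp ξ' {w}) (by have := h.hd; omega)
      (fun f => (fl_leaf f).elim fun y => Q.pt _ _ _ _ y) k (by have := h.ht; omega)).mono le_rfl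
      ?_ le_rfl le_rfl
    rw [sup_assoc]
    refine sup_le_sup_left ((Q.mono ξ' (O' := O.erase w ∪ {w}) fun u hu => ?_).trans ?_) _
    · by_cases k : u = w <;> simp [k, hu]
    · rw [Q.un, Q.loc ξ ξ' _ fun u hu => hw u (mem_of_mem_erase hu) (ne_of_mem_erase hu),
        Q.pa ξ {g} (singleton_subset_iff.2 (e ▸ Gas.lp_mem_L ξ v))]
      exact sup_le_sup_right (Q.mono ξ ((erase_subset _ _).trans (by simpa [pts] using hO))) _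

theorem Pk.inp (h : Pk Q Sd Cw Y L0 ε N nc d m t Fc R R1 nD Km ws near)
    (hg : GrC Q Sd Y (d + 1 + 1) m nc R1 Pr γ) (γ0 : 0 < γ) (hs : G.Val s) (hc : Cw (s.add {g})) :
    Inp G.ex G.ey (G.pn s) (G.mdl Y s).b (Gd Q (d + 1) m (t + 1) (Fc s.cv) R s)
      (Gd Q (d + 1 + 1) m (I.S.tm + 1) (Fc s.cv) R1 s) Pr γ (nD * ε) L0 := by
  have k := (Ld.Kl.anti s _ (h.kl _ hc)).mono d.le_succ t.le_succ le_rfl
  obtain ⟨Dm, h1, h2⟩ := h.alv s k.sup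
  exact C9.inp h.ok h.Y0 h.Y1 h.e0 h.f2 hg γ0 h.one h.hd h.ht h.hR hs k.sd k.card h2 h1 k.cl

/-- **HitC.** -/
theorem Pk.hit (h : Pk Q Sd Cw Y L0 ε N nc d m t Fc R R1 nD Km ws near)
    (hg : GrC Q Sd Y (d + 1 + 1) m nc R1 Pr γ) (γ0 : 0 < γ) {Z : Λ → Finset Λ}
    (hZ : ∀ r v ξ, v.2 ∉ Z r → Pr (0, r) (Sg G.ex G.ey ξ v)) {q : ℝ} (hq : L0 * (γ + nD * ε) ≤ q)
    (k0 : ℕ) : G.HitC Cw ws near Z Km k0 q := fun s hs r ξ n h0 h1 h2 h3 =>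
  (Cr.hit (G := fun g => s.Cg Cw Km g ∧ 2 ^ k0 ≤ Gas.wd g) (h.inp hg γ0 hs h1.1.1) hZ
    (fun _ a b => h.cl hs a.1 b) r ξ n h0 h1 h2 h3).trans hq

/-- **Gram.** -/
theorem Pk.gram (h : Pk Q Sd Cw Y L0 ε N nc d m t Fc R R1 nD Km ws near)
    (hg : GrC Q Sd Y (d + 1 + 1) m nc R1 Pr γ) (hg2 : GrC Q Sd Y (d + 1 + 1) m nc R1 Pr2 γ2)
    (γ0 : 0 < γ2) (hγ : γ2 ≤ γ) {nb : Λ → Finset Λ} {W Zt : Λ → Finset (Fin T × Λ)}
    {Fa : Fin T × Λ → Finset (Fin T × Λ)} {m0 B nZ n3 τ : ℕ} (C : Cel G.ex G.ey ws near nb m0 B)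
    (Z : Zon G.ex G.ey ws near Pr Pr2 W Zt Fa nZ n3 τ (2 ^ k0)) (δ0 : 0 ≤ δ) (h0 : Km ≠ 0) {x : ℝ}
    (hx : κc m0 B Km nZ n3 τ (L0 * (γ + nD * ε)) (L0 * (γ2 + nD * ε)) (δ * 2 ^ k0) ≤ x ^ 2) :
    G.Gram Cw Km k0 x δ := by
  intro s hs D hD hδ a c ha hc
  have n1 : ∀ f : Lp T Λ → ℝ, (∀ g, 0 ≤ f g) → 0 ≤ Op.ex (Pw (G.pn s)) (TK.Ph G.ex G.ey f) :=
    fun f hf => nm_nn (h.ok.pn s) hf
  by_cases k : ∃ g, s.Cg Cw Km g
  · obtain ⟨g, k⟩ := k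
    refine (crs (h.inp hg (γ0.trans_le hγ) hs k.1) (h.inp hg2 γ0 hs k.1) hγ C Z hD (by positivity)
      (fun z g => ?_) h0 (fun _ => h.cl hs) a c ha hc).trans (mul_le_mul_of_nonneg_right
      (mul_le_mul_of_nonneg_right hx (n1 _ fun g => mul_nonneg (sq_nonneg _) (hD g).1))
      (n1 _ fun g => sq_nonneg _))
    rw [mul_right_comm]
    exact mul_le_mul_of_nonneg_right (hδ z g) (by positivity)
  · obtain rfl : a = 0 := funext fun g => of_not_not fun z => k ⟨g, ha g z⟩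
    simp [TK.Ph, Op.ex]

/-- **SlwC.** -/
theorem slwC {D v : ℕ} (h : ∀ s, G.Val s → Cw s → SlowD G.ex G.ey G.d D
    (fun r => cn s.e r = true ∨ G.d (G.ex r) (G.ey r) = 0) (fun u => u ∉ s.Z) v) :
    G.SlwC Cw (wsD D) (nr G.d v) := fun s g h1 h2 h3 =>
  slw_of (h _ h1 h2) (fun r k => .inl (decide_eq_true ⟨g, by simp [Cfg.add], k⟩))
    fun u hu k => h3 ⟨u, hu, mem_union_left _ k⟩

/-- **Geo.** -/
theorem geo {V : ℕ → ℕ} {D B v σ : ℕ} (hG : G.Ok) (hV : Vol G.d V) (hD : 0 < D)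
    (hB : T ≤ B * D) : G.Geo (wsD D) (nr G.d v) (bal G.d R) σ B (V (σ + 2 + v)) (V (σ + 2 + R)) := by
  classical
  have C := cel hG.d hV hD hB v
  refine ⟨C.hws, C.hB, fun A hA => ?_⟩
  rcases A.eq_empty_or_nonempty with rfl | ⟨z, hz⟩
  · simp
  have key : ∀ r x y, x ∈ A → G.d y x ≤ r → y ∈ bal G.d (σ + 2 + r) z := fun r x y hx h => by
    have := hG.d.2.2.1 z x y
    have := hA z hz x hx
    rw [hG.d.2.1] at h
    exact mem_bal.2 (by omega)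
  exact ⟨(card_le_card fun y hy => by
      obtain ⟨x, h1, h2⟩ := (mem_filter.1 hy).2
      exact key v x y h1 h2).trans (hV _ z),
    (card_le_card fun y hy => by
      obtain ⟨x, h1, h2⟩ := (mem_filter.1 hy).2
      exact key R x y h1 (mem_bal.1 h2)).trans (hV _ z)⟩

/-- **F4.** -/
theorem f4 (hG : G.Ok) (Y0 : 0 ≤ Y) (Y1 : Y < 1) (h0 : 0 ≤ ε) (f : F2A Q Sd Y d m 0 0 0 ε)
    (g : GrC Q Sd Y (d + 1) m 0 0 Pr2 γ) (γ0 : 0 ≤ γ) (hd : I.S.k0 + I.S.oc + d ≤ I.S.tm)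
    (hN : ∀ s : Cfg T Λ, Sd s.Z → s.Sup N) (hA : AlvH I N m nD) {W Zt : Λ → Finset (Fin T × Λ)}
    {Fa : Fin T × Λ → Finset (Fin T × Λ)} {nZ n3 τ : ℕ}
    (Z : Zon G.ex G.ey ws near Pr Pr2 W Zt Fa nZ n3 τ K0) {μ : Lp T Λ → ℝ}
    (hμ : ∀ g, 0 ≤ μ g ∧ μ g ≤ 1) (δ0 : 0 ≤ δ)
    (hδ : ∀ g, 0 < Gas.wd g → Gas.wd g < K0 → yw Y g * μ g ≤ δ) (hπ : γ + nD * ε + δ ≤ π) :
    Ld.F4 I G Sd Y μ d m π := by
  classical
  intro s v a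
  obtain ⟨Dm, h1, h2⟩ := hA s (hN s a.sd)
  have hb := fld (G := G) Y0 Y1 s
  have r := (ret2 (hG.pn s) hb gd_mono (g s ∅ a.val a.sd a.card) γ0 (E := ∅) (ξ0 := fun _ => false)
    (by rw [ends_empty]; omega) (Z.hF v).1 (Z.hF v).2.1).trans (add_le_add le_rfl
    (he hG Y0 Y1 h0 f hd le_rfl le_rfl a.val a.sd a.card h2 h1 _ _ (gd_empty.2 a.cl)
      (by rw [ends_empty]; omega)))
  rw [pin_empty, kill_empty] at r
  refine le_trans ?_ ((add_le_add r (le_refl δ)).trans hπ)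
  rw [Ld.JC, Ld.J_mark fun _ B => Ld.ct (fun g => v ∈ g.2) B, ← one_mul δ, ← sum_Pw (G.pn s),
    sum_mul, ← sum_add_distrib]
  refine sum_le_sum fun ξ _ => ?_
  rw [← mul_add]
  refine mul_le_mul_of_nonneg_left ?_ (Pw_nonneg (hG.pn s) ξ)
  unfold Ld.ct
  rw [Pe.av_sum, sum_eq_single_of_mem _ (Gas.lp_mem_L ξ v) fun g hg hne => by
    rw [if_neg fun k => hne (Gas.eq_lp hg k), zero_mul], if_pos (by exact Gas.self_mem_obv ξ v), one_mul]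
  have u0 := Gas.ub_nn (fun v => (hb.mem v).1) (lp G.ex G.ey ξ v)
  split_ifs with k
  · rw [zero_add]
    refine le_trans (mul_le_mul_of_nonneg_right ?_ (hμ _).1) (hδ _ (wd_pos (Gas.lp_mem_L ξ v))
      (not_le.1 fun z => Z.meet (wd_lp ξ v ▸ z) k))
    rw [← Bs.u_yw, Cfg.u, Gas.off]
    split_ifs; exacts [yw_nn Y0 _, le_rfl]
  · exact (mul_le_of_le_one_right u0 (hμ _).2).trans (le_add_of_nonneg_right δ0)

/-- **GrnC.** -/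
theorem grnC (hG : G.Ok) (Y0 : 0 ≤ Y) (Y1 : Y < 1) (h0 : 0 ≤ ε) (f : F2A Q Sd Y d m nc R R1 ε)
    (g : GrC Q Sd Y (d + 1) m nc R1 Pr γ) (hd : I.S.k0 + I.S.oc + d ≤ I.S.tm) (ht : t ≤ I.S.tm)
    (hR : R ≤ R1) (hA : AlvH I N m nD) (hC : ∀ s, Cw s → Kl I Sd N nc d m t Fc R s)
    {Pr' : Cfg T Λ → Λ → Λ → Prop} (hP : ∀ s z f, Pr' s z.2 f.2 → Pr z f) :
    G.GrnC Y Cw Pr' γ (nD * ε) := by
  intro s ξ hc _ hξ
  have k := hC s hc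
  obtain ⟨Dm, h1, h2⟩ := hA s k.sup
  have v : G.Val ⟨∅, s.Z, s.cv⟩ := by rw [Bs.Val, hG.cpt0.empty]; exact one_ne_zero
  have e1 : G.pn ⟨∅, s.Z, s.cv⟩ = G.p := Gas.pin_empty _
  have e2 : (G.mdl Y ⟨∅, s.Z, s.cv⟩).b = Gas.kill (Top.bt Y) s.Z := by simp [Bs.mdl, Cfg.K, pts]
  have a := g ⟨∅, s.Z, s.cv⟩ _ v k.sd k.card
  have b := he (s := ⟨∅, s.Z, s.cv⟩) hG Y0 Y1 h0 f hd ht hR v k.sd k.card h2 h1 (pts s.e) ξ
    (by rw [Gd, ← Q.pa ξ _ hξ, ← I.pa_union, empty_union]; exact k.cl) (by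
      refine (card_eq_zero.2 (filter_eq_empty_iff.2 fun u hu z => z ?_)).trans_le zero_le_one
      obtain ⟨g, h3, h4⟩ := Gas.mem_pts.1 hu
      refine Gas.mem_pts.2 ⟨g, h3, ?_⟩
      rw [Gas.eq_lp (hξ h3) h4]
      exact Gas.mem_obv.2 (o_apply _ _))
  rw [e1, e2] at a b
  exact ⟨_, gd_mono, fun O ξ z f h1 h2 h3 => a O ξ z f h1 h2 (hP s z f h3), b⟩

end Crest.Agent.N337.C9
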