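import Crest.Agent.N337.L4.Crs
import Crest.Agent.N337.G1.Defs

/-!
# Row 337, C9 (helper96): cells, zones and speed limits from a metric on the slots
-/

set_option autoImplicit false
set_option linter.unusedSectionVars false

namespace Crest.Agent.N337.C9

open Finset Equiv Crest.Agent.N337.Rep Crest.Agent.N337.Arc Crest.Agent.N337.Cr
open Crest.Agent.N337.A (Met Path Slow)
open Crest.Agent.N337.Gas (Lp lp)

variable {Λ : Type} [Fintype Λ] [DecidableEq Λ] {T : ℕ} [NeZero T]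

/-- balls of slots. -/
def bal (d : Λ → Λ → ℕ) (r : ℕ) (x : Λ) : Finset Λ := univ.filter fun y => d x y ≤ r
/-- volume bound. -/
def Vol (d : Λ → Λ → ℕ) (V : ℕ → ℕ) : Prop := ∀ r x, (bal d r x).card ≤ V r
/-- displacement at most `v`. -/
def nr (d : Λ → Λ → ℕ) (v : ℕ) (x y : Λ) : Prop := d x y ≤ v
/-- start of the window (windows of `D` steps; `D = T`: one window). -/
def wsD (D : ℕ) (s : Fin T) : Fin T := ⟨s / D * D, (Nat.div_mul_le_self _ _).trans_lt s.2⟩
/-- far pairs (target `z`, source `f`). -/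
def PrD (d : Λ → Λ → ℕ) (R : ℕ) (z f : Fin T × Λ) : Prop := R ≤ d z.2 f.2
/-- far or late pairs. -/
def PrT (d : Λ → Λ → ℕ) (R t : ℕ) (z f : Fin T × Λ) : Prop :=
  z ≠ f ∧ (R ≤ d z.2 f.2 ∨ t ≤ G1.lag f.1 z.1)
/-- pairs at the longest lag. -/
def PrL (z f : Fin T × Λ) : Prop := z ≠ f ∧ G1.lag f.1 z.1 + 1 = T
/-- allowed paths from the start of a window have displacement at most `v`. -/
def SlowD (ex ey : Fin T → Λ) (d : Λ → Λ → ℕ) (D : ℕ) (Al : Fin T → Prop) (W : Fin T × Λ → Prop)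
    (v : ℕ) : Prop :=
  ∀ t γ, t < T → Path ex ey Al W (t / D * D) t γ → d (γ (t / D * D)) (γ t) ≤ v

variable {ex ey : Fin T → Λ} {d : Λ → Λ → ℕ} {V : ℕ → ℕ} {D B R R1 v τ K0 : ℕ}

lemma mem_bal {r : ℕ} {x y : Λ} : y ∈ bal d r x ↔ d x y ≤ r := by simp [bal]

lemma slowD_of {Al : Fin T → Prop} {W : Fin T × Λ → Prop} (h : Slow ex ey d Al W v) (D : ℕ) :
    SlowD ex ey d D Al W v := fun t γ ht hp => h _ t γ (Nat.div_mul_le_self _ _) ht.le hp

lemma wsD_le (D : ℕ) (s : Fin T) : wsD D s ≤ s := Nat.div_mul_le_self _ _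

lemma card_ws (hD : 0 < D) (S : Finset (Fin T)) (I : Finset ℕ) (h : ∀ s ∈ S, s.val / D ∈ I) :
    (S.image (wsD D)).card ≤ I.card := by
  refine card_le_card_of_injOn (fun t => t.val / D) (fun t ht => ?_) fun t ht t' ht' e => ?_
  · obtain ⟨s, hs, rfl⟩ := mem_image.1 (mem_coe.1 ht)
    simpa only [wsD, Nat.mul_div_cancel _ hD, mem_coe] using h s hs
  · obtain ⟨s, -, rfl⟩ := mem_image.1 (mem_coe.1 ht)
    obtain ⟨s', -, rfl⟩ := mem_image.1 (mem_coe.1 ht')
    simp only [wsD, Nat.mul_div_cancel _ hD] at e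
    exact Fin.ext (by simp only [wsD, e])

lemma step_le (hd : Met ex ey d) (ξ : Fin T → Bool) (u : Fin T × Λ) :
    d u.2 (Sg ex ey ξ u).2 ≤ 1 := by
  obtain ⟨s, x⟩ := u
  rw [Sg_apply]
  unfold sg; split_ifs
  · rw [swap_apply_def]; split_ifs with h1 h2
    · rw [h1]; exact hd.2.2.2 s
    · rw [h2, hd.2.1]; exact hd.2.2.2 s
    · simp [hd.1]
  · simp [hd.1]

lemma far_step (hd : Met ex ey d) {r : Λ} {u : Fin T × Λ} (ξ : Fin T → Bool) (h : ¬ d r u.2 ≤ R) :
    R ≤ d r (Sg ex ey ξ u).2 := by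
  have h1 := step_le hd ξ u
  have h2 := hd.2.2.1 r (Sg ex ey ξ u).2 u.2
  rw [hd.2.1 (Sg ex ey ξ u).2 u.2] at h2
  omega

lemma near_le (hd : Met ex ey d) {r x : Λ} {s : Fin T} (h1 : d r (ex s) ≤ R ∨ d r (ey s) ≤ R)
    (h2 : nr d v x (ex s) ∨ nr d v x (ey s)) : d r x ≤ R + v + 1 := by
  have a1 := hd.2.2.2 s
  have a2 := hd.2.2.1 r (ex s) x
  have a3 := hd.2.2.1 r (ey s) x
  have a4 := hd.2.2.1 (ex s) (ey s) x
  have a5 := hd.2.2.1 (ey s) (ex s) x
  rw [hd.2.1 (ey s) (ex s)] at a5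
  simp only [nr, hd.2.1 x] at h2
  omega

lemma card_in (hd : Met ex ey d) (hV : Vol d V) (r : ℕ) (x : Λ) :
    (univ.filter fun y => d y x ≤ r).card ≤ V r := by
  simpa only [bal, hd.2.1 x] using hV r x

/-- **cells.** -/
theorem cel (hd : Met ex ey d) (hV : Vol d V) (hD : 0 < D) (hB : T ≤ B * D) (v : ℕ) :
    Cel ex ey (wsD D) (nr d v) (bal d (v + 1)) (V (v + 1)) B where
  hws := wsD_le D
  hB := (card_ws hD _ (range B) fun s _ => mem_range.2
    (Nat.div_lt_of_lt_mul (by rw [mul_comm]; exact s.2.trans_le hB))).trans_eq (card_range B)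
  mem s x h := mem_bal.2 (by simpa using near_le (R := 0) hd (Or.inl (hd.1 _).le) h)
  c1 := hV _
  c2 x := by simpa only [mem_bal] using card_in hd hV (v + 1) x

/-- the zone of `Hit`. -/
lemma hit_zone (hd : Met ex ey d) (r : Λ) (u : Fin T × Λ) (ξ : Fin T → Bool)
    (h : u.2 ∉ bal d R r) : PrD d R (0, r) (Sg ex ey ξ u) := far_step hd ξ (mt mem_bal.2 h)

/-- **zones, levels `≥ 2`.** -/
theorem zonD (hd : Met ex ey d) (hV : Vol d V) (hR : 1 ≤ R1) (hK : V R1 < K0) (R v : ℕ) :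
    Zon ex ey (wsD T) (nr d v) (PrD d R) (PrD d R1) (fun r => univ.filter fun u => d r u.2 ≤ R)
      (fun r => (bal d (R + v + 1) r).image (Prod.mk 0))
      (fun z => univ.filter fun f => R1 ≤ d z.2 f.2) (V (R + v + 1)) (V (R + v + 1)) 1 K0 where
  hws := wsD_le T
  hW r u ξ h := far_step hd ξ fun k => h (mem_filter.2 ⟨mem_univ _, k⟩)
  hZ r s x h1 h2 := mem_image.2 ⟨x, mem_bal.2 (near_le hd (by simpa [mem_tch] using h1) h2),
    Prod.ext (Fin.ext (by simp [wsD, Nat.div_eq_of_lt s.2])) rfl⟩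
  cZ r := card_image_le.trans (hV _ r)
  c3 z := (card_le_card fun r hr => by
    obtain ⟨x, hx, rfl⟩ := mem_image.1 (mem_filter.1 hr).2
    exact mem_filter.2 ⟨mem_univ _, mem_bal.1 hx⟩).trans (card_in hd hV _ z.2)
  cT := card_le_one.2 fun s hs t ht => by
    simp only [mem_image, mem_biUnion] at hs ht
    obtain ⟨_, ⟨_, -, _, -, rfl⟩, rfl⟩ := hs
    obtain ⟨_, ⟨_, -, _, -, rfl⟩, rfl⟩ := ht
    rfl
  hF z := ⟨by simp [hd.1]; omega, fun f hf => (mem_filter.1 hf).2, 0,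
    (card_le_card fun x hx => mem_bal.2 (by simp at hx; omega)).trans_lt ((hV R1 z.2).trans_lt hK)⟩

/-- **zones, level `1`**: the ball of radius `R` during the last `τ` windows. -/
theorem zonT (hd : Met ex ey d) (hV : Vol d V) (hR : 1 ≤ R) (hD : 0 < D) (hτ : 1 ≤ τ)
    (hT : τ * D < T) (v : ℕ) :
    Zon ex ey (wsD D) (nr d v) (PrT d R (τ * D)) PrL
      (fun r => univ.filter fun u => d r u.2 ≤ R ∧ T ≤ u.1.val + τ * D)
      (fun r => (univ.filter fun s : Fin T => T ≤ s.val + τ * D).image (wsD D) ×ˢ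
        bal d (R + v + 1) r)
      (fun z => univ.filter fun f => f.1 = z.1 + 1) ((τ + 1) * V (R + v + 1)) (V (R + v + 1))
      (τ + 1) (2 ^ 0) := by
  have h1 : 1 ≤ τ * D := Nat.mul_pos hτ hD
  have hc : ((univ.filter fun s : Fin T => T ≤ s.val + τ * D).image (wsD D)).card ≤ τ + 1 := by
    refine (card_ws hD _ (Icc ((T - τ * D) / D) ((T - τ * D) / D + τ)) fun s hs => ?_).trans
      (by rw [Nat.card_Icc]; omega)
    have h2 := (mem_filter.1 hs).2
    refine mem_Icc.2 ⟨Nat.div_le_div_right (by omega), ?_⟩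
    rw [← Nat.add_mul_div_right _ _ hD]
    exact Nat.div_le_div_right (by have := s.2; omega)
  have one : ((1 : Fin T) : ℕ) = 1 := by rw [Fin.val_one', Nat.mod_eq_of_lt (by omega)]
  refine ⟨wsD_le D, fun r u ξ h => ?_, fun r s x h1 h2 => ?_, fun r => ?_, fun z => ?_, ?_,
    fun z => ⟨?_, fun f hf => ?_, z.1 + 1, by simp⟩⟩
  · simp only [mem_filter, mem_univ, true_and, not_and_or] at h
    rcases h with h | h
    · have := far_step hd ξ h
      refine ⟨fun e => ?_, Or.inl this⟩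
      rw [← e, hd.1] at this; omega
    · have e : (Sg ex ey ξ u).1.val = u.1.val + 1 := by
        change (u.1 + 1).val = _
        rw [Fin.val_add, one, Nat.mod_eq_of_lt (by omega)]
      have ne : (0 : Fin T) ≠ (Sg ex ey ξ u).1 := fun k => by rw [← k] at e; simp at e
      refine ⟨fun k => ne (congrArg Prod.fst k), Or.inr ?_⟩
      rw [G1.lag, if_neg ne, zero_sub, Fin.val_neg, if_neg ne.symm, e]; omega
  · simp only [mem_tch, mem_filter, mem_univ, true_and] at h1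
    exact mem_product.2 ⟨mem_image_of_mem _ (mem_filter.2 ⟨mem_univ _, h1.elim (·.2) (·.2)⟩),
      mem_bal.2 (near_le hd (h1.imp (·.1) (·.1)) h2)⟩
  · rw [card_product]; exact Nat.mul_le_mul hc (hV _ r)
  · exact (card_le_card fun r hr => mem_filter.2 ⟨mem_univ _,
      mem_bal.1 (mem_product.1 (mem_filter.1 hr).2).2⟩).trans (card_in hd hV _ z.2)
  · refine le_trans (card_le_card fun s hs => ?_) hc
    obtain ⟨z, hz, rfl⟩ := mem_image.1 hs
    obtain ⟨r, -, hr⟩ := mem_biUnion.1 hz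
    exact (mem_product.1 hr).1
  all_goals
    have ne : z.1 ≠ z.1 + 1 := fun k => by
      have := congrArg Fin.val (add_left_cancel ((add_zero z.1).trans k))
      rw [one] at this; simp at this
  · simpa using ne
  · have e := (mem_filter.1 hf).2
    refine ⟨fun k => ne (k ▸ e), ?_⟩
    have ne1 : (1 : Fin T) ≠ 0 := fun k => ne (by rw [k, add_zero])
    rw [G1.lag, e, if_neg ne, sub_add_cancel_left, Fin.val_neg, if_neg ne1, one]; omega

/-- **slow loops obey the speed rule.** -/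
theorem slw_of {Al : Fin T → Prop} {W : Fin T × Λ → Prop} (h : SlowD ex ey d D Al W v)
    {g : Lp T Λ} (hAl : ∀ s, g.1 s = true → Al s) (hW : ∀ u ∈ g.2, W u) :
    TK.Slw ex ey (spd (wsD D) (nr d v)) g := by
  rintro ξ r rfl i
  have ht := arc_time ex ey (0, r) ξ
  simp only [Fin.val_zero, zero_add] at ht
  have h1 := Nat.div_add_mod i T
  have h2 := Nat.div_mul_le_self (i % T) D
  have key := h (i % T) (fun k => (arc ex ey (0, r) ξ (T * (i / T) + k)).2)
    (Nat.mod_lt _ (NeZero.pos T)) fun s _ _ => ?_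
  · simp only [spd, nr, wsD, ht]
    rw [h1] at key
    rwa [show i - (i % T - i % T / D * D) = T * (i / T) + i % T / D * D by omega]
  have e : arc ex ey (0, r) ξ (T * (i / T) + s) = (s, (arc ex ey (0, r) ξ (T * (i / T) + s)).2) :=
    Prod.ext (Fin.ext (by rw [ht]; simp [Nat.mod_eq_of_lt s.2])) rfl
  have hm : (s, (arc ex ey (0, r) ξ (T * (i / T) + s)).2) ∈ (lp ex ey ξ (0, r)).2 :=
    e ▸ arc_mem_lo ξ _ _
  refine ⟨hW _ hm, ?_⟩
  beta_reduce
  generalize (arc ex ey (0, r) ξ (T * (i / T) + s)).2 = x at e hm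
  rw [← add_assoc, arc_succ, e, Sg_apply]
  unfold sg; split_ifs with k
  swap
  · exact Or.inl rfl
  by_cases k2 : Gas.tch ex ey (Gas.obv ex ey ξ (0, r)) s
  · exact Or.inr ⟨hAl s (by simp only [Gas.lp, if_pos k2, k]), rfl⟩
  · exact Or.inl (swap_apply_of_ne_of_ne (fun z => k2 (Or.inl (z ▸ hm))) fun z => k2 (Or.inr (z ▸ hm)))

end Crest.Agent.N337.C9
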