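import Crest.Agent.N337.C9.Ins
import Crest.Agent.N337.M.ExcP

/-!
# Row 337, C9 (helper96): final forms of `Geo`, `Gram`, `HitC`, `SlwC`, `F4`, `RetA`

Inputs: the word (`Gw`), one structure of numbers, and `F2A`.
-/

set_option autoImplicit false
set_option linter.unusedSectionVars false

namespace Crest.Agent.N337.C9

open Finset Crest.Agent.N337.Free Crest.Agent.N337.M Crest.Agent.N337.I Crest.Agent.N337.Cr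
open Crest.Agent.N337.Gas (Lp)
open Crest.Agent.N337.Ld (Kl AlvH)

variable {L n T : ℕ} [NeZero L] [NeZero T]

/-- the word and the scales of G1 for the classes `(≤ d, m, nc, R)`. -/
structure Gw (W : Gl.Wd T) (G : Bs T (Tor 3 L × Fin n)) (P : I.Num) (S : G1.Scales) (Y e : ℝ)
    (d m nc R K j : ℕ) : Prop where
  w : Wr W G P.toLf Y
  nu : Gl.Nu W L P.toLf S (P.tm + 1) 4 j
  sc : ScN P S d m nc R K
  hL : 2 * (2 ^ K - 1) < L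
  he : W.er L n ≤ e

/-- numbers common to `Gram` and `HitC` in the class `(d, t, R)`. -/
structure PkN (P : I.Num) (Y L0 ε : ℝ) (d t τ R R1 Km : ℕ) : Prop where
  sl : SlN P d t τ
  L1 : 1 ≤ L0 * Y ^ Km
  e0 : 0 ≤ ε
  hd : P.k0 + 27 + d + 1 ≤ P.tm
  ht : t + 1 ≤ P.tm
  hR : R ≤ R1
  Km : Km ≠ 0

/-- numbers over a medium: speed `v`, zone `r`, far set `r1`; `κ, Yw` = constants of the word. -/
structure TkM (P : I.Num) (S : G1.Scales) (n B : ℕ) (κ Yw e L0 ε : ℝ)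
    (m τ nc R nD Km k0 K v r r1 : ℕ) (γ γ2 q δ x : ℝ) : Prop where
  hv : B * vw P τ m nc R ≤ v
  r0 : 1 ≤ r
  rη : 4 * S.η (S.mt - 1) ≤ r
  rr : r ≤ r1
  rK : Vn n r1 < 2 ^ k0
  g1 : γd κ Yw e S P.A K r ≤ γ
  g2 : γd κ Yw e S P.A K r1 ≤ γ2
  g0 : 0 < γ2
  g12 : γ2 ≤ γ
  hq : L0 * (γ + nD * ε) ≤ q
  δ0 : 0 ≤ δ
  hx : κc (Vn n (v + 1)) 1 Km (Vn n (r + v + 1)) (Vn n (r + v + 1)) 1 (L0 * (γ + nD * ε))
    (L0 * (γ2 + nD * ε)) (δ * 2 ^ k0) ≤ x ^ 2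

/-- numbers at level one: zone = ball of radius `r` during the last `τ1` windows. -/
structure T1M (P : I.Num) (S : G1.Scales) (n B : ℕ) (κ Yw e L0 ε : ℝ)
    (τ nD Km K v r r' r2 τ1 Nb Nb2 : ℕ) (γ γ2 x : ℝ) : Prop where
  mt : S.mt = 1
  hv : vw P τ 0 0 0 ≤ v
  r0 : 1 ≤ r
  rη : 4 * S.η 0 ≤ r ∧ 4 * S.η 0 ≤ r' ∧ 4 * S.η 0 ≤ r2
  N1 : 1 ≤ Nb ∧ Nb * (P.l + 2) ≤ τ1 ∧ τ1 < B
  N2 : 1 ≤ Nb2 ∧ Nb2 * (P.l + 2) < B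
  g1 : γd κ Yw e S P.A K r ≤ γ ∧ γt κ Yw e S P.A K r' Nb ≤ γ
  g2 : γt κ Yw e S P.A K r2 Nb2 ≤ γ2
  g0 : 0 < γ2
  g12 : γ2 ≤ γ
  hx : κc (Vn n (v + 1)) B Km ((τ1 + 1) * Vn n (r + v + 1)) (Vn n (r + v + 1)) (τ1 + 1)
    (L0 * (γ + nD * ε)) (L0 * (γ2 + nD * ε)) 0 ≤ x ^ 2

variable {W : Gl.Wd T} {G : Bs T (Tor 3 L × Fin n)} {P : I.Num} {z0 : Tor 3 L} {S : G1.Scales}
  {y Y L0 ε γ γ2 e q δ x π : ℝ} {B d m t τ nc R R1 N nD Km k0 K j v r r' r1 r2 τ1 Nb Nb2 : ℕ}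
  {hT : T = B * P.D} {hp : PtN P.toLf B} {Sd Sd' : Finset (V L n T) → Prop}
  {Cw : Cfg T (Tor 3 L × Fin n) → Prop} {Fc : Finset (Tor 3 L × Fin n) → Finset (Tor 3 L)}

theorem F2A.mono {Q : Pp (ins G.ex G.ey P z0) G} {nc' : ℕ} {ε' : ℝ} (f : F2A Q Sd Y d m nc R R1 ε)
    (hS : ∀ Z, Sd' Z → Sd Z) (hn : nc' ≤ nc) (he : ε ≤ ε') : F2A Q Sd' Y d m nc' R R1 ε' :=
  fun s F E ξ x a b c k1 k2 k3 => (f s F E ξ x a (hS _ b) (c.trans hn) k1 k2 k3).trans he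

theorem F2A.zero {Q : Pp (ins G.ex G.ey P z0) G} (f : F2A Q Sd Y d m nc R R1 ε) :
    F2A Q Sd Y d m 0 0 0 ε := fun s F E ξ x a b c k1 k2 _ => by
  obtain rfl := card_eq_zero.1 (Nat.le_zero.1 c)
  exact f s ∅ E ξ x a b (Nat.zero_le _) (fun y _ => Ld.Cls.all k1 y) k2 fun f hf => by simp at hf

theorem Gw.mono {Y' : ℝ} {d' nc' R' : ℕ} (g : Gw W G P S Y e d m nc R K j) (h0 : 0 ≤ Y')
    (hY : Y' ≤ Y) (hd : d' ≤ d) (hn : nc' ≤ nc) (hR : R' ≤ R) : Gw W G P S Y' e d' m nc' R' K j :=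
  ⟨{ g.w with
      b0 := fun v => le_trans (by unfold Top.bt; split_ifs; exacts [hY, le_rfl]) (g.w.b0 v)
      Y0 := h0
      Y1 := hY.trans_lt g.w.Y1 }, g.nu,
    ⟨by have := g.sc.hτ; omega, g.sc.lo, g.sc.top.imp (fun h => ⟨h.1, by omega⟩)
      fun h => ⟨h.1, hn.trans h.2.1, hR.trans h.2.2⟩, g.sc.hK⟩, g.hL, g.he⟩

theorem Gw.far (g : Gw W G P S Y e d m nc R K j) (h1 : 1 ≤ r) (hr : 4 * S.η (S.mt - 1) ≤ r)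
    (hγ : γd W.κ W.Y e S P.A K r ≤ γ) : GrC (ppI G P z0 hT hp) Sd Y d m nc R (PrD G.d r) γ :=
  grC_far g.w g.nu g.sc g.hL g.he h1 hr hγ

theorem Gw.last (g : Gw W G P S Y e d m nc R K j) (h0 : S.mt = 1) (hr : 4 * S.η 0 ≤ r2)
    (hN : 1 ≤ Nb2 ∧ Nb2 * (P.l + 2) < B) (hγ : γt W.κ W.Y e S P.A K r2 Nb2 ≤ γ2) :
    GrC (ppI G P z0 hT hp) Sd Y d m nc R PrL γ2 := by
  have k := grC_lag (z0 := z0) (hT := hT) (hp := hp) (Sd := Sd) g.w g.nu g.sc h0 g.hL g.he hr hN.1 hγ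
  refine k.or k fun z f h => .inl ⟨h.1, ?_⟩
  have := Nat.mul_lt_mul_of_pos_right hN.2 (D_pos hT)
  have := h.2
  omega

theorem pk (g : Wr W G P.toLf Y) (a : PkN P Y L0 ε d t τ R R1 Km)
    (hA : AlvH (ins G.ex G.ey P z0) N m nD) (f : F2A (ppI G P z0 hT hp) Sd Y (d + 1) m nc R R1 ε)
    (hC : ∀ s, Cw s → Kl (ins G.ex G.ey P z0) Sd N nc d m t Fc R s) {ws : Fin T → Fin T}
    {near : Tor 3 L × Fin n → Tor 3 L × Fin n → Prop} (h : G.SlwC Cw ws near) :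
    Pk (ppI G P z0 hT hp) Sd Cw Y L0 ε N nc d m t Fc R R1 nD Km ws near :=
  ⟨g.ok, g.Y0, g.Y1, a.L1, a.e0, hC, hA, a.hd, a.ht, a.hR, f, h⟩

/-- **the medium**: `geo`, `gram`, `hit`, `slow` of `TkP`. -/
theorem tk_fin (g : Gw W G P S Y e (d + 1 + 1) m nc R1 K j) (a : PkN P Y L0 ε d t τ R R1 Km)
    (c : TkM P S n B W.κ W.Y e L0 ε m τ nc R nD Km k0 K v r r1 γ γ2 q δ x)
    (hA : AlvH (ins G.ex G.ey P z0) N m nD) (f : F2A (ppI G P z0 hT hp) Sd Y (d + 1) m nc R R1 ε)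
    (hC : ∀ s, Cw s → Kl (ins G.ex G.ey P z0) Sd N nc d m t Fc R s) (σ : ℕ) :
    G.Geo (wsD T) (nr G.d v) (bal G.d r) σ 1 (Vn n (σ + 2 + v)) (Vn n (σ + 2 + r)) ∧
      G.Gram Cw Km k0 x δ ∧ G.HitC Cw (wsD T) (nr G.d v) (bal G.d r) Km k0 q ∧
      G.SlwC Cw (wsD T) (nr G.d v) := by
  have hs := slwC_all g.w.ok g.w.d hT a.sl c.hv hC
  have k := pk g.w a hA f hC hs
  have hd := g.w.ok.d
  have hV := vol g.w.d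
  have g1 := g.far (z0 := z0) (hT := hT) (hp := hp) (Sd := Sd) c.r0 c.rη c.g1
  exact ⟨geo g.w.ok hV (NeZero.pos T) (one_mul T).ge,
    k.gram g1 (g.far (c.r0.trans c.rr) (c.rη.trans c.rr) c.g2) c.g0 c.g12
      (cel hd hV (NeZero.pos T) (one_mul T).ge v) (zonD hd hV (c.r0.trans c.rr) c.rK r v) c.δ0 a.Km
      c.hx, k.hit g1 (c.g0.trans_le c.g12) (hit_zone hd) c.hq k0, hs⟩

/-- **level one**: the Gram bound of `In1`. -/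
theorem gram_one (g : Gw W G P S Y e (d + 1 + 1) 0 0 0 K j) (a : PkN P Y L0 ε d t τ 0 0 Km)
    (c : T1M P S n B W.κ W.Y e L0 ε τ nD Km K v r r' r2 τ1 Nb Nb2 γ γ2 x)
    (hA : AlvH (ins G.ex G.ey P z0) N 0 nD) (f : F2A (ppI G P z0 hT hp) Sd Y (d + 1) 0 0 0 0 ε)
    (hC : ∀ s, Cw s → Kl (ins G.ex G.ey P z0) Sd N 0 d 0 t Fc 0 s) : G.Gram Cw Km 0 x 0 := by
  have hd := g.w.ok.d
  have hV := vol g.w.d
  have D0 := D_pos hT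
  obtain ⟨n1, n2, n3⟩ := c.N1
  refine (pk g.w a hA f hC (slwC_win g.w.ok g.w.d hT a.sl c.hv hC)).gram
    ((g.far c.r0 (by rw [c.mt]; exact c.rη.1) c.g1.1).or
      (grC_lag g.w g.nu g.sc c.mt g.hL g.he c.rη.2.1 n1 c.g1.2) fun z f h => h.2.imp id fun k =>
        ⟨h.1, (Nat.mul_le_mul_right _ n2).trans k⟩)
    (g.last c.mt c.rη.2.2 c.N2 c.g2) c.g0 c.g12 (cel hd hV D0 hT.le v)
    (zonT hd hV c.r0 D0 (by nlinarith) (hT ▸ Nat.mul_lt_mul_of_pos_right n3 D0) v) le_rfl a.Km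
    (by simpa using c.hx)

/-- **F4** over a medium (`Tf` = its inverse field). -/
theorem f4_far (g : Gw W G P S Y e (d + 1) m 0 0 K j) (h0 : 0 ≤ ε) (hd : P.k0 + 27 + d ≤ P.tm)
    (hA : AlvH (ins G.ex G.ey P z0) N m nD) (f : F2A (ppI G P z0 hT hp) Sd Y d m 0 0 0 ε)
    (h1 : 1 ≤ r1) (hr : 4 * S.η (S.mt - 1) ≤ r1) (hγ : γd W.κ W.Y e S P.A K r1 ≤ γ) (γ0 : 0 ≤ γ)
    {Tf : ℝ} (T0 : 0 < Tf) (hπ : γ + nD * ε + 3 / Tf * Vn n r1 ≤ π) {D : Lp T (Tor 3 L × Fin n) → ℝ}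
    (hD : ∀ g, 0 ≤ D g ∧ D g ≤ yw Y g ∧ D g * Tf ≤ 3 * Gas.wd g) :
    Ld.F4 (ins G.ex G.ey P z0) G (SdN N Sd) Y (Ld.mk D Y) d m π := by
  refine f4 g.w.ok g.w.Y0 g.w.Y1 h0 (f.mono (fun _ h => h.1) le_rfl le_rfl) (g.far h1 hr hγ) γ0 hd
    (fun _ h => h.2) hA (zonD g.w.ok.d (vol g.w.d) h1 (Nat.lt_succ_self _) 0 0)
    (Ld.mk_mem fun g => ⟨(hD g).1, (hD g).2.1⟩) (by positivity) (fun a _ h => ?_) hπ
  have h2 : (Gas.wd a : ℝ) ≤ Vn n r1 := by exact_mod_cast Nat.lt_succ_iff.1 h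
  have h3 : yw Y a * Ld.mk D Y a ≤ D a := by
    rw [Ld.mk]
    by_cases k : yw Y a = 0
    · rw [k, zero_mul]; exact (hD a).1
    · rw [mul_div_cancel₀ _ k]
  rw [div_mul_eq_mul_div, le_div_iff₀ T0]
  linarith [mul_le_mul_of_nonneg_right h3 T0.le, (hD a).2.2]

/-- **F4** at level one, any marks. -/
theorem f4_one (g : Gw W G P S Y e (d + 1) 0 0 0 K j) (h0 : 0 ≤ ε) (hd : P.k0 + 27 + d ≤ P.tm)
    (hA : AlvH (ins G.ex G.ey P z0) N 0 nD) (f : F2A (ppI G P z0 hT hp) Sd Y d 0 0 0 0 ε)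
    (mt : S.mt = 1) (hr : 4 * S.η 0 ≤ r2) (hN : 1 ≤ Nb2 ∧ Nb2 * (P.l + 2) < B)
    (hγ : γt W.κ W.Y e S P.A K r2 Nb2 ≤ γ) (γ0 : 0 ≤ γ) (hπ : γ + nD * ε ≤ π)
    {μ : Lp T (Tor 3 L × Fin n) → ℝ} (hμ : ∀ g, 0 ≤ μ g ∧ μ g ≤ 1) :
    Ld.F4 (ins G.ex G.ey P z0) G (SdN N Sd) Y μ d 0 π :=
  f4 g.w.ok g.w.Y0 g.w.Y1 h0 (f.mono (fun _ h => h.1) le_rfl le_rfl) (g.last mt hr hN hγ) γ0 hd
    (fun _ h => h.2) hA (zonT g.w.ok.d (vol g.w.d) le_rfl (D_pos hT) le_rfl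
      (hT ▸ Nat.mul_lt_mul_of_pos_right (by nlinarith [hN.1, hN.2]) (D_pos hT)) 0) hμ le_rfl
    (fun _ a b => by omega) (by simpa using hπ)

/-- **RetA.** -/
theorem retA (g : Gw W G P S Y e 2 m nc R1 K j) (h0 : 0 ≤ ε) (hd : P.k0 + 27 + 1 ≤ P.tm)
    (hR : R ≤ R1) (hA : AlvH (ins G.ex G.ey P z0) N m nD)
    (f : F2A (ppI G P z0 hT hp) Sd Y 1 m nc R R1 ε) (h1 : 1 ≤ r) (hr : 4 * S.η (S.mt - 1) ≤ r)
    (hγ : γd W.κ W.Y e S P.A K r ≤ γ) (γ0 : 0 ≤ γ) (y0 : 0 ≤ y) (hy : y ≤ Y) :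
    RetA (ins G.ex G.ey P z0) G Sd y N m nc R r (γ + nD * ε) := fun F =>
  (retC_of g.w.ok g.w.Y0 g.w.Y1 γ0 (grnC (Fc := fun _ => F) g.w.ok g.w.Y0 g.w.Y1 h0 f (g.far h1 hr hγ)
    hd le_rfl hR hA (fun _ h => ⟨h.1, h.2.sd, h.2.card, h.2.cl⟩) fun _ _ _ h => h)).mono g.w.ok y0 hy
    fun _ h => h

end Crest.Agent.N337.C9
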