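import Crest.Agent.N337.C9.Abs
import Crest.Agent.N337.Gl.Mdl
import Crest.Agent.N337.I.Alv

/-!
# Row 337, C9 (helper96): point parties, Green claims and speed limits on the concrete rung
-/

set_option autoImplicit false
set_option linter.unusedSectionVars false

namespace Crest.Agent.N337.C9

open Finset Crest.Agent.N337.Free Crest.Agent.N337.KV Crest.Agent.N337.Rep Crest.Agent.N337.M
  Crest.Agent.N337.I
open Crest.Agent.N337.Gas (cn pts)
open Crest.Agent.N337.A (Path Slow ivt_path)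
open Crest.Agent.N337.Arc (HG)

variable {L n T : ℕ} [NeZero L] [NeZero T] {B : ℕ}

/-- a single point is not a leaf. -/
theorem not_W0 {F : Lf} {ex ey : Fin T → Tor 3 L × Fin n} (hT : T = B * F.D) (h1 : 1 ≤ F.n1)
    (h2 : 2 ≤ F.j1) (h3 : 1 ≤ F.l1) (h4 : F.l ≤ B) (ξ : Fin T → Bool) (w : V L n T) (E : Ev L n T)
    (Z : Finset (Tor 3 L)) (x : Tor 3 L) : ¬ W0 F (evp ex ey ξ {w}) E Z x := by
  classical
  rintro (⟨k, h⟩ | ⟨i, h⟩ | ⟨s, -, i, h⟩)
  · refine absurd (h.trans_le (card_le_one.2 fun y hy z hz => ?_)) (not_lt.2 h1)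
    have a := mem_singleton.1 (vis_sub (mem_filter.1 hy).2.1)
    have b := mem_singleton.1 (vis_sub (mem_filter.1 hz).2.1)
    exact (Prod.mk.inj (a.trans b.symm)).2
  · refine absurd (h.trans_le ((chg_le_card ?_).trans ((card_le_card (vis_sub.trans
      (sdiff_subset.trans (?_ : acp ex ey ξ {w} ⊆ {(w.1, ex w.1), (w.1, ey w.1)})))).trans card_le_two)))
      (not_lt.2 h2)
    · rw [hT]; exact Nat.le_mul_of_pos_left _ (B_pos hT)
    · rintro ⟨s, y⟩ hy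
      obtain ⟨-, -, a, b⟩ := mem_acp.1 hy
      obtain rfl : s = w.1 := a.elim (fun k => congrArg Prod.fst (mem_singleton.1 k))
        fun k => congrArg Prod.fst (mem_singleton.1 k)
      simpa using b
  · have key : ∀ i', Cl F (F.rr (s + 1)) (vis Z (E.1 ∪ {w})) x i' ∧ ¬ Cl F (F.rr s) (vis Z E.1) x i' →
        ∃ k ∈ Ico (i' * F.D) ((i' + 1) * F.D), tm T k = w.1 := by
      rintro i' ⟨⟨k, a, z, b, c⟩, e⟩
      refine ⟨k, a, of_not_not fun ne => e ⟨k, a, z, b.trans (F.rr_anti s.le_succ),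
        c.trans (cnt_le fun y h5 h6 => ⟨?_, h6⟩)⟩⟩
      obtain ⟨h7, h8⟩ := mem_vis.1 h5
      exact mem_vis.2 ⟨(mem_union.1 h7).resolve_right fun k =>
        ne (congrArg Prod.fst (mem_singleton.1 k)), h8⟩
    refine absurd (h.trans_le (card_le_one.2 fun a ha b hb => ?_)) (not_lt.2 h3)
    obtain ⟨k, k1, k2⟩ := key a (mem_filter.1 ha).2
    obtain ⟨k', k3, k4⟩ := key b (mem_filter.1 hb).2
    have a1 := mem_Ico.1 (win_sub (mem_filter.1 ha).1 k1)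
    have a2 := mem_Ico.1 (win_sub (mem_filter.1 hb).1 k3)
    have a3 : F.l * F.D ≤ T := hT ▸ Nat.mul_le_mul_right _ h4
    rw [add_mul] at a1 a2
    have a4 := (tm_add_inj (T := T) (i * F.D) (a := k - i * F.D) (b := k' - i * F.D) (by omega)
      (by omega)).1 (by rw [Nat.add_sub_cancel' a1.1, Nat.add_sub_cancel' a2.1, k2, k4])
    obtain rfl : k = k' := by omega
    rw [mem_Ico] at k1 k3
    exact le_antisymm (Nat.lt_succ_iff.1 (lt_of_mul_lt_mul_right (k1.1.trans_lt k3.2) F.D.zero_le))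
      (Nat.lt_succ_iff.1 (lt_of_mul_lt_mul_right (k3.1.trans_lt k1.2) F.D.zero_le))

/-- numbers: single points are not leaves. -/
structure PtN (F : Lf) (B : ℕ) : Prop where
  n1 : 1 ≤ F.n1
  j1 : 2 ≤ F.j1
  l1 : 1 ≤ F.l1
  l : F.l ≤ B

/-- **point parties.** -/
noncomputable def ppI (G : Bs T (Tor 3 L × Fin n)) (P : I.Num) (z0 : Tor 3 L) (hT : T = B * P.D)
    (h : PtN P.toLf B) : Pp (ins G.ex G.ey P z0) G where
  pp := evp G.ex G.ey
  un := evp_union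
  loc _ _ _ := evp_loc
  pa _ _ := I.ev_eq
  pt := not_W0 hT h.n1 h.j1 h.l1 h.l

/-- the word seen by G1 (`Y` = purple fugacity). -/
structure Wr (W : Gl.Wd T) (G : Bs T (Tor 3 L × Fin n)) (F : Lf) (Y : ℝ) : Prop where
  ok : G.Ok
  d : G.d = fun x y => tdist x.1 y.1
  wd : W.Ok G.ex G.ey F
  p0 : W.p0 = G.p
  b0 : ∀ v : V L n T, Top.bt Y v ≤ W.b0 v.1
  Y0 : 0 ≤ Y
  Y1 : Y < 1

/-- numbers: the scales `S` of G1 for the class `(d, m, nc, R)`; `2 ^ K` = size of the top ball. -/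
structure ScN (P : I.Num) (S : G1.Scales) (d m nc R K : ℕ) : Prop where
  hτ : P.k0 + 27 + d ≤ P.tm + 1
  lo : ∀ l < m, (P.tm + 2) * P.a ≤ S.a (l + 1) ∧ P.rad l (P.tm + 1) ≤ S.σ (l + 1) ∧
    4 * S.η (l + 1) + 3 * (P.tm + 1) * P.H l ≤ P.ρ (l + 1)
  top : (S.mt = m + 1 ∧ nc = 0) ∨ (S.mt = m + 2 ∧ nc ≤ S.a (m + 1) ∧ R ≤ S.σ (m + 1))
  hK : ∀ l < S.mt, S.η l ≤ 2 ^ K - 1

/-- zero mode. -/
noncomputable def zm (Y : ℝ) (K : ℕ) : ℝ := 4 / (1 - Y) / ((2 * (2 ^ K - 1) + 1) ^ 3 : ℕ)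
/-- Green bound at distance `r`. -/
noncomputable def γd (κ Y e : ℝ) (S : G1.Scales) (A K r : ℕ) : ℝ :=
  G1.Cg κ * (zm Y K + G1.Cc S A S.mt r * S.η (S.mt - 1) / r + e)
/-- Green bound at lag `Nb (l + 2) D`. -/
noncomputable def γt (κ Y e : ℝ) (S : G1.Scales) (A K r Nb : ℕ) : ℝ :=
  G1.Cg κ * (zm Y K + (G1.Cc S A 1 1 / Nb + G1.Cc S A 1 r * S.η 0 / r) + e)

variable {W : Gl.Wd T} {G : Bs T (Tor 3 L × Fin n)} {P : I.Num} {z0 : Tor 3 L} {S : G1.Scales}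
  {Y γ e : ℝ} {d m nc R K j r : ℕ} {hT : T = B * P.D} {hp : PtN P.toLf B}
  {Sd : Finset (V L n T) → Prop}

theorem st (w : Wr W G P.toLf Y) (nu : Gl.Nu W L P.toLf S (P.tm + 1) 4 j) (c : ScN P S d m nc R K)
    {s : Cfg T (Tor 3 L × Fin n)} (hs : G.Val s) {F : Finset (Tor 3 L)} (hF : F.card ≤ nc)
    {O : Finset (V L n T)} {ξ : Fin T → Bool} (h : Gd (ppI G P z0 hT hp) d m (P.tm + 1) F R s O ξ)
    (he : Arc.ends G.ex G.ey ξ O ≤ 2) : ∃ U, U S.mt = ∅ ∧ Gl.St W G.ex G.ey P.toLf S (P.tm + 1) 4 j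
      (G.pn s) (G.mdl Y s).b (I.ev G.ex G.ey s.e) (kil s.Z) ξ O O U := by
  classical
  set J := jk (sys n T P z0) d (I.ev G.ex G.ey s.e ⊔ evp G.ex G.ey ξ O) (kil s.Z) (P.tm + 1) with hJ
  have hc : ∀ y ∈ J (m + 1), ∃ f ∈ F, tdist f y ≤ R := fun y hy => by
    by_contra k
    exact mem_jk.1 hy (h y fun f hf => lt_of_not_ge fun a => k ⟨f, hf, a⟩)
  obtain ⟨ξ0, -, hξ⟩ := Gas.qq_supp hs
  refine ⟨fun l => if l ≤ m + 1 then J l else ∅, ?_, w.wd, ⟨w.ok.pn s, fun r hr => ?_, rp_ev _ hξ⟩,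
    nu, fld w.Y0 w.Y1 s, le_bE (fun v => ?_) (fun v hv => ?_) fun v hv => ?_, Subset.rfl, by omega,
    fun l h1 h2 y h3 h4 => ?_, fun y hy => ?_⟩
  · rcases c.top with ⟨a, rfl⟩ | ⟨a, -⟩ <;> rw [a]
    · refine (if_pos le_rfl).trans (eq_empty_of_forall_notMem fun y hy => ?_)
      obtain ⟨f, hf, -⟩ := hc y hy
      rw [card_eq_zero.1 (Nat.le_zero.1 hF)] at hf
      exact notMem_empty f hf
    · exact if_neg (by omega)
  · rw [w.p0]; exact if_neg hr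
  · exact (Gas.kill_le (fun v => by unfold Top.bt; split_ifs; exacts [w.Y0, zero_le_one]) _ v).trans
      (w.b0 v)
  · exact if_pos (mem_union_right _ hv)
  · exact if_pos (mem_union_left _ (mem_of_kil hv))
  · obtain ⟨l, rfl⟩ : ∃ k, l = k + 1 := ⟨l - 1, by omega⟩
    by_cases k : l < m
    · simp only [if_pos (show l + 1 + 1 ≤ m + 1 by omega), if_pos (show l + 1 ≤ m + 1 by omega)]
        at h4 ⊢
      have g := not_mem_jk.1 h4
      obtain ⟨c1, c2, c3⟩ := c.lo l k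
      refine ⟨_, g.card_cov.trans c1, fun u hu h5 => ?_⟩
      obtain ⟨f, a, b⟩ := g.jk_cov (le_trans (Nat.add_le_add_right h5 _) c3)
        fun k => mem_jk.1 hu (k.up c.hτ)
      exact ⟨f, a, b.trans c2⟩
    · rcases c.top with ⟨a, -⟩ | ⟨a, c1, c2⟩
      · omega
      obtain rfl : l = m := by omega
      refine ⟨F, hF.trans c1, fun u hu _ => ?_⟩
      obtain ⟨f, a, b⟩ := hc u (by simpa using hu)
      exact ⟨f, a, b.trans c2⟩
  · rw [if_pos (by omega)] at hy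
    exact not_mem_jk.1 hy

lemma tp (W : Gl.Wd T) (Z : Finset (Tor 3 L)) (K : ℕ) :
    Gl.Tp W Z ((2 * (2 ^ K - 1) + 1) ^ 3) (zm W.Y K) := .inl ⟨Nat.one_le_pow _ _ (by omega), le_rfl⟩

/-- **far pairs.** -/
theorem grC_far (w : Wr W G P.toLf Y) (nu : Gl.Nu W L P.toLf S (P.tm + 1) 4 j)
    (c : ScN P S d m nc R K) (hL : 2 * (2 ^ K - 1) < L) (he : W.er L n ≤ e) (h1 : 1 ≤ r)
    (hr : 4 * S.η (S.mt - 1) ≤ r) (hγ : γd W.κ W.Y e S P.A K r ≤ γ) :
    GrC (ppI G P z0 hT hp) Sd Y d m nc R (PrD G.d r) γ := by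
  intro s F hs _ hF O ξ z f h hO hz
  obtain ⟨U, hU, k⟩ := st w nu c hs hF h hO
  have cl : ∀ x q, G1.Clean S U x S.mt q := fun _ _ _ a b => by omega
  replace hz : r ≤ tdist z.2.1 f.2.1 := by rwa [PrD, w.d] at hz
  have := k.far (x := z.2.1) (v := z) (u := f) nu.ok.pos le_rfl ((cl _ _).near nu.ok (by simp [hU]))
    G1.Cc_nonneg (G1.capH_clean nu.ok k.cov nu.hA nu.ok.pos (cl _ _) (by simp [hU]) hL c.hK)
    (Nat.div_le_self _ _) (tp W _ K) (.inr rfl) (tdist_comm _ _ ▸ hz) hr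
  rw [if_neg fun a => by rw [a, tdist_self] at hz; omega, sub_zero] at this
  rw [WN.Gf_single]
  exact this.trans (le_trans (mul_le_mul_of_nonneg_left (add_le_add le_rfl he)
    (G1.Cg_nonneg w.wd.clock.hκ)) hγ)

/-- **long lags** (scale `0`). -/
theorem grC_lag (w : Wr W G P.toLf Y) (nu : Gl.Nu W L P.toLf S (P.tm + 1) 4 j)
    (c : ScN P S d m nc R K) (h0 : S.mt = 1) (hL : 2 * (2 ^ K - 1) < L) (he : W.er L n ≤ e)
    (hr : 4 * S.η 0 ≤ r) {Nb : ℕ} (hN : 1 ≤ Nb) (hγ : γt W.κ W.Y e S P.A K r Nb ≤ γ) :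
    GrC (ppI G P z0 hT hp) Sd Y d m nc R
      (fun z f => z ≠ f ∧ Nb * (P.l + 2) * P.D ≤ G1.lag f.1 z.1) γ := by
  intro s F hs _ hF O ξ z f h hO hz
  obtain ⟨U, hU, k⟩ := st w nu c hs hF h hO
  have cl : ∀ x q, G1.Clean S U x 1 q := fun _ _ _ a b => by omega
  have cp := fun q nm => G1.capH_clean (x := z.2.1) (d := q) (nmax := nm) nu.ok k.cov nu.hA le_rfl
    (cl _ _) (by simp [hU]) hL (h0 ▸ c.hK)
  have := k.lag (x := z.2.1) (v := z) (u := f) ((cl _ _).near nu.ok (by simp [hU])) G1.Cc_nonneg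
    (cp r r) (Nat.div_le_self _ _) G1.Cc_nonneg (cp _ 1) (tp W _ K) (.inr rfl) hr hN hz.2
  rw [if_neg hz.1, sub_zero] at this
  rw [WN.Gf_single]
  exact this.trans (le_trans (mul_le_mul_of_nonneg_left (add_le_add le_rfl he)
    (G1.Cg_nonneg w.wd.clock.hκ)) hγ)

lemma GrC.or {Q : Pp (ins G.ex G.ey P z0) G} {Pr Pr1 Pr2 : V L n T → V L n T → Prop}
    (h1 : GrC Q Sd Y d m nc R Pr1 γ) (h2 : GrC Q Sd Y d m nc R Pr2 γ)
    (h : ∀ z f, Pr z f → Pr1 z f ∨ Pr2 z f) : GrC Q Sd Y d m nc R Pr γ :=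
  fun s F a b c O ξ z f k1 k2 k3 =>
    (h z f k3).elim (h1 s F a b c O ξ z f k1 k2) (h2 s F a b c O ξ z f k1 k2)

/-! ### speed -/

/-- a long path leaves the balls. -/
lemma exists_off {X α κ : Type} [Fintype X] [SemilatticeSup α] [Preorder κ] {S : Rg.Sys X α κ}
    {F : Finset X} (hF : F.card ≤ nc) {γ : ℕ → X} {s u : ℕ} (hs : s ≤ u)
    (hγ : ∀ r, s ≤ r → r < u → S.d (γ r) (γ (r + 1)) ≤ 1) (h2 : nc * (2 * R + 1) ≤ S.d (γ s) (γ u)) :
    ∃ r, s ≤ r ∧ r ≤ u ∧ S.Off F R (γ r) ∧ S.d (γ s) (γ r) ≤ nc * (2 * R + 1) := by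
  classical
  have h5 : ∀ i : Fin (nc + 1), ∃ r, s ≤ r ∧ r ≤ u ∧ S.d (γ s) (γ r) = i * (2 * R + 1) := fun i =>
    ivt_path hs (fun r a b => (S.d_tri _ (γ r) _).trans (Nat.add_le_add_left (hγ r a b) _))
      (by rw [S.d_self]; omega) ((Nat.mul_le_mul_right _ (Nat.le_of_lt_succ i.2)).trans h2)
  choose r r1 r2 r3 using h5
  have h6 : ∃ i, S.Off F R (γ (r i)) := by
    by_contra h
    simp only [Rg.Sys.Off, not_exists, not_forall, not_lt] at h
    choose f f1 f2 using h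
    have := card_le_card_of_injOn (s := univ) (t := F) f (fun i _ => f1 i) fun i _ j _ e => by
      have a1 := f2 i
      have a2 := f2 j
      have a3 := S.d_tri (γ s) (γ (r i)) (γ (r j))
      have a4 := S.d_tri (γ s) (γ (r j)) (γ (r i))
      have a5 := S.d_tri (γ (r i)) (f j) (γ (r j))
      have a6 := S.d_comm (γ (r i)) (γ (r j))
      have a7 := S.d_comm (γ (r i)) (f j)
      rw [e] at a1
      rw [r3, r3] at a3 a4
      refine Fin.ext (le_antisymm ?_ ?_) <;> by_contra h <;> push Not at h <;>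
        nlinarith [Nat.mul_le_mul_right (2 * R + 1) (Nat.succ_le_of_lt h)]
    rw [card_univ, Fintype.card_fin] at this
    omega
  obtain ⟨i, hi⟩ := h6
  exact ⟨r i, r1 i, r2 i, hi, (r3 i).trans_le (Nat.mul_le_mul_right _ (Nat.le_of_lt_succ i.2))⟩

/-- numbers: speed per window in the class `(d, t)`. -/
structure SlN (P : I.Num) (d t τ : ℕ) : Prop where
  hl : 1 ≤ P.l
  hτ : P.k0 + 27 + d ≤ τ
  ht : t ≤ τ
  hρ : ∀ m, (τ + 1) * P.a * (2 * P.rad m τ + 1) + 3 * τ * P.H m ≤ P.ρ (m + 1)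
  hJ : 2 * τ * P.j1 ≤ P.r0

/-- speed per window. -/
def vw (P : I.Num) (τ m nc R : ℕ) : ℕ := 2 * τ * P.j1 + P.lw τ m + nc * (2 * R + 1)

/-- **pins are slow**, also through the balls of the cover. -/
theorem slow_cov (hG : G.Ok) (hd : G.d = fun x y => tdist x.1 y.1) {t τ : ℕ} (c : SlN P d t τ)
    {s : Cfg T (Tor 3 L × Fin n)} {F : Finset (Tor 3 L)} (hF : F.card ≤ nc)
    (h : Ld.Cd (ins G.ex G.ey P z0) d m t F R s) (i : ℕ) :
    Slow G.ex G.ey G.d (fun r => (cn s.e r = true ∨ G.d (G.ex r) (G.ey r) = 0) ∧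
      r.val ∈ Ico (i * P.D) ((i + 1) * P.D)) (fun u => u ∉ s.Z) (vw P τ m nc R) := by
  classical
  have hm := hG.d
  rw [hd] at hm ⊢
  intro a b γ hs ht hγ
  by_contra k
  rw [vw, ← lw_sys (n := n) (T := T) P z0] at k
  have st : ∀ r, a ≤ r → r < b → tdist (γ r).1 (γ (r + 1)).1 ≤ 1 := fun r h1 h2 => by
    rcases (hγ ⟨r, h2.trans_le ht⟩ h1 h2).2 with e | ⟨-, e⟩ <;> rw [show γ (r + 1) = _ from e]
    · rw [tdist_self]; omega
    · rw [Equiv.swap_apply_def]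
      split_ifs with h3 h4
      · rw [h3]; exact hm.2.2.2 _
      · rw [h4, tdist_comm]; exact hm.2.2.2 _
      · rw [tdist_self]; omega
  obtain ⟨r, r1, r2, r3, r4⟩ := exists_off (S := sys n T P z0) (R := R) (γ := fun r => (γ r).1) hF hs st
    (show _ ≤ tdist _ _ by beta_reduce at k; omega)
  have a1 := tdist_triangle (γ a).1 (γ r).1 (γ b).1
  obtain ⟨q, q1, q2, q3, q4⟩ := exists_base (S := sys n T P z0) (γ := fun r => (γ r).1)
    (J := 2 * τ * P.j1) c.hτ c.hρ m r r2 (fun u h1 h2 => st u (r1.trans h1) h2) ((h _ r3).up c.ht)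
    (show _ < tdist _ _ by change tdist _ _ ≤ _ at r4; beta_reduce at k r4 ⊢; omega)
  refine absurd (A.path_le_count (d := fun x y => tdist x.1 y.1) hm q2 ht (hγ.sub (r1.trans q1) le_rfl)
    (I := univ.filter fun u : Fin T => u.val ∈ Ico (i * P.D) ((i + 1) * P.D) ∧
      1 ≤ cnt (vis (kil s.Z) (act G.ex G.ey s.e)) u (γ q).1 P.r0) (le_trans ?_ (G0.chg_le q3 c.hl i))
    fun u y h1 h2 h3 h4 h5 => mem_filter.2 ⟨mem_univ _, h1.2, card_pos.2 ⟨y, mem_filter.2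
      ⟨mem_univ _, ?_, h5.trans c.hJ⟩⟩⟩) (not_le.2 q4)
  · rw [← card_image_of_injective _ Fin.val_injective]
    refine le_trans (card_le_card (t := (Ico (i * P.D) ((i + 1) * P.D)).filter fun k =>
      1 ≤ cnt (vis (kil s.Z) (act G.ex G.ey s.e)) k (γ q).1 P.r0) fun k hk => ?_) ?_
    · obtain ⟨u, hu, rfl⟩ := mem_image.1 hk
      exact mem_filter.2 (mem_filter.1 hu).2
    · rw [card_filter]
      exact sum_le_sum fun k _ => by split_ifs with h; exacts [h, Nat.zero_le _]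
  · rw [tm_fin]
    exact mem_vis.2 ⟨mem_act.2 ⟨by simpa [cn] using h1.1.resolve_right h2,
      fun e => h2 (by rw [e, tdist_self]), h3⟩, not_dead h4⟩

variable {Cw : Cfg T (Tor 3 L × Fin n) → Prop} {Fc : Finset (Tor 3 L × Fin n) → Finset (Tor 3 L)}
  {N t τ v : ℕ}

/-- **SlwC**, one window of `T` steps. -/
theorem slwC_all (hG : G.Ok) (hd : G.d = fun x y => tdist x.1 y.1) (hT : T = B * P.D)
    (c : SlN P d t τ) (hv : B * vw P τ m nc R ≤ v)
    (hC : ∀ s, Cw s → Ld.Kl (ins G.ex G.ey P z0) Sd N nc d m t Fc R s) :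
    G.SlwC Cw (wsD T) (nr G.d v) := slwC fun s _ h => slowD_of (fun a b γ h1 h2 h3 =>
  (slow_all hG.d hT (slow_cov hG hd c (hC s h).card (hC s h).cl) a b γ h1 h2 h3).trans hv) T

/-- **SlwC**, windows of `P.D` steps. -/
theorem slwC_win (hG : G.Ok) (hd : G.d = fun x y => tdist x.1 y.1) (hT : T = B * P.D)
    (c : SlN P d t τ) (hv : vw P τ m nc R ≤ v)
    (hC : ∀ s, Cw s → Ld.Kl (ins G.ex G.ey P z0) Sd N nc d m t Fc R s) :
    G.SlwC Cw (wsD P.D) (nr G.d v) := slwC fun s _ h b γ h1 h2 =>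
  (slow_cov hG hd c (hC s h).card (hC s h).cl (b / P.D) _ b γ (Nat.div_mul_le_self _ _) h1.le
    fun r k1 k2 => ⟨(h2 r k1 k2).1, (h2 r k1 k2).2.imp_right fun k => ⟨⟨k.1, mem_Ico.2 ⟨k1,
      k2.trans (by rw [add_mul, one_mul]; exact Nat.lt_div_mul_add (D_pos hT))⟩⟩, k.2⟩⟩).trans hv

/-- volume of the balls of slots. -/
def Vn (n r : ℕ) : ℕ := n * (2 * r + 1) ^ 3

theorem vol (hd : G.d = fun x y => tdist x.1 y.1) : Vol G.d (Vn n) := fun r x => by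
  rw [hd]
  refine (card_le_card (t := (univ.filter fun y => tdist x.1 y ≤ r) ×ˢ (univ : Finset (Fin n)))
    fun y hy => mem_product.2 ⟨mem_filter.2 ⟨mem_univ _, (mem_bal.1 hy :)⟩, mem_univ _⟩).trans ?_
  rw [card_product, card_univ, Fintype.card_fin, mul_comm]
  exact Nat.mul_le_mul_left _ (card_ball_le _ _)

end Crest.Agent.N337.C9
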